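import Vale.Agent.N190.Residue

/-! Small Cohen-Macaulay modules: failure for standard graded domains over every field of
characteristic zero. -/

namespace Vale.Agent.Results.P190.A0Graded

open Vale.Agent.N190 IsLocalRing MvPolynomial

universe v

/-- (1) Every standard graded domain of dimension `d ≥ 3` over a field of characteristic zero has a
module-finite standard graded extension domain without maximal Cohen-Macaulay modules at the
irrelevant ideal (over the ring itself and over its localization).
(2) Such standard graded domains exist over every field of characteristic zero in every dimension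
`d ≥ 3`. -/
theorem result :
    (∀ (K : Type) [Field K] [CharZero K] (m : ℕ) (Q : Ideal (MvPolynomial (Fin m) K)) (d : ℕ),
      HomPrime Q → ringKrullDim (MvPolynomial (Fin m) K ⧸ Q) = d → 3 ≤ d →
      ∃ (n : ℕ) (P : Ideal (MvPolynomial (Fin (m + n)) K)), GradedNoCM.{v} P d ∧
        P.comap (rename (Fin.castAdd n)) = Q ∧
        ((Ideal.Quotient.mkₐ K P).comp (rename (Fin.castAdd n))).Finite) ∧
    (∀ (K : Type) [Field K] [CharZero K] (d : ℕ), 3 ≤ d →
      ∃ (n : ℕ) (P : Ideal (MvPolynomial (Fin n) K)), GradedNoCM.{v} P d) := by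
  have hI : ∀ (K : Type) [Field K] (n : ℕ) (P : Ideal (MvPolynomial (Fin n) K)),
      (idealOfVars (Fin n) K).map (Ideal.Quotient.mk P) =
        Ideal.span (Set.range fun j => Ideal.Quotient.mk P (X j)) := by
    intro K _ n P
    rw [Ideal.map_span, ← Set.range_comp]
    rfl
  refine ⟨?_, ?_⟩
  · intro K _ _ m Q d hQ hd h3
    obtain ⟨n, P, h1, h2, h4, h5⟩ := exists_graded_cover.{v} K m Q hQ d h3 hd
    rw [hI] at h5
    exact ⟨n, P, ⟨h1, h5⟩, h2, h4⟩
  · intro K _ _ d h3
    obtain ⟨n, P, h1, h2⟩ := exists_graded.{v} K d h3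
    rw [hI] at h2
    exact ⟨n, P, h1, h2⟩

end Vale.Agent.Results.P190.A0Graded
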